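import Vale.Agent.P165.Bdl.B3

namespace Vale.Agent.Results.P165.BenjaminiSchramm

open Vale.Agent.P165

universe u

/-- **The Benjamini-Schramm conjecture.** Bernoulli bond percolation on every infinite, connected,
locally finite, quasi-transitive, nonamenable graph has a nonuniqueness phase:
`p_c(G) < p_u(G)`. -/
theorem result {V : Type u} [Infinite V] (G : SimpleGraph V) [G.LocallyFinite]
    (hG : G.Connected) (hqt : IsQuasiTransitive G) (hna : 0 < vertexCheeger G) :
    pc G < pu G :=
  BS.lift_universe (fun _ _ h1 h2 h3 => BS2.pc_lt_pu_of_nonamenable h1 h2 h3) G hG hqt hna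

end Vale.Agent.Results.P165.BenjaminiSchramm
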